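import Vale.Agent.P181.ST.Defs

/-!
# P181, ST (T7): growth of the number of partitions without ones (helper342)
-/

set_option autoImplicit false

namespace Vale.Agent.P181.ST.H342

open Vale.Agent.P181.SZ (PT)

lemma mem_PT {w : ℕ} {k : Multiset ℕ} : k ∈ PT w ↔ k.sum = w ∧ ∀ x ∈ k, 2 ≤ x := by
  unfold PT
  rw [Finset.mem_filter, Finset.mem_image]
  constructor
  · rintro ⟨⟨p, -, rfl⟩, h⟩
    exact ⟨p.parts_sum, h⟩
  · rintro ⟨h1, h2⟩
    exact ⟨⟨⟨k, fun {i} hi => by have := h2 i hi; omega, h1⟩, Finset.mem_univ _, rfl⟩, h2⟩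

theorem card_big_mul_le {n : ℕ} (S : ℕ) (ρ : Multiset ℕ) (hρ : ρ.sum = n) :
    ((Finset.Ico S (2 * S)).filter (fun c => c ∈ ρ)).card * S ≤ n := by
  classical
  set A : Finset ℕ := (Finset.Ico S (2 * S)).filter (fun c => c ∈ ρ) with hA
  have h1 : A.val ≤ ρ := by
    rw [Finset.val_le_iff_val_subset]
    intro x hx
    rw [Finset.mem_val] at hx
    exact (Finset.mem_filter.mp hx).2
  have h3 : A.val.sum ≤ ρ.sum := by
    obtain ⟨t, ht⟩ := Multiset.le_iff_exists_add.mp h1
    rw [ht, Multiset.sum_add]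
    omega
  rw [hρ] at h3
  have h4 : A.val.sum = A.sum (fun x => x) := by
    rw [Finset.sum, Multiset.map_id']
  have h5 : A.card * S ≤ A.sum (fun x => x) := by
    rw [← smul_eq_mul]
    apply Finset.card_nsmul_le_sum
    intro x hx
    exact (Finset.mem_Ico.mp (Finset.mem_filter.mp hx).1).1
  omega

theorem step (S z : ℕ) (hS : 2 ≤ S) :
    S * (PT z).card ≤ ((z + 3 * S) / S) * (PT (z + 3 * S)).card := by
  classical
  have h1 : (Finset.Ico S (2 * S) ×ˢ PT z).card = S * (PT z).card := by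
    rw [Finset.card_product, Nat.card_Ico]
    congr 1
    omega
  rw [← h1]
  refine (Finset.card_le_mul_card_image_of_maps_to
    (f := fun x : ℕ × Multiset ℕ => x.2 + ({x.1, 3 * S - x.1} : Multiset ℕ)) ?_ _ ?_)
  · rintro ⟨c, k⟩ hx
    rw [Finset.mem_product, Finset.mem_Ico, mem_PT] at hx
    obtain ⟨⟨hc1, hc2⟩, hk1, hk2⟩ := hx
    simp only at hc1 hc2 hk1 hk2
    rw [mem_PT]
    constructor
    · simp only [Multiset.sum_add, Multiset.insert_eq_cons, Multiset.sum_cons,
        Multiset.sum_singleton]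
      omega
    · intro y hy
      simp only [Multiset.mem_add, Multiset.insert_eq_cons, Multiset.mem_cons,
        Multiset.mem_singleton] at hy
      rcases hy with h | h | h
      · exact hk2 y h
      · omega
      · omega
  · intro ρ hρ
    refine le_trans ?_ ((Nat.le_div_iff_mul_le (by omega)).mpr
      (card_big_mul_le S ρ (mem_PT.mp hρ).1))
    refine Finset.card_le_card_of_injOn (fun x => x.1) ?_ ?_
    · intro x hx
      rw [Finset.mem_coe, Finset.mem_filter] at hx
      rw [Finset.mem_coe, Finset.mem_filter]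
      refine ⟨(Finset.mem_product.mp hx.1).1, ?_⟩
      rw [← hx.2]
      simp
    · intro x hx y hy hxy
      rw [Finset.mem_coe, Finset.mem_filter] at hx hy
      obtain ⟨c, k⟩ := x
      obtain ⟨c', k'⟩ := y
      have hc : c = c' := hxy
      subst hc
      have h5 : k + ({c, 3 * S - c} : Multiset ℕ) = k' + ({c, 3 * S - c} : Multiset ℕ) :=
        hx.2.trans hy.2.symm
      rw [add_right_cancel h5]

/-- One more part `r ≥ 2`. -/
theorem mono (z r : ℕ) (hr : 2 ≤ r) : (PT z).card ≤ (PT (z + r)).card := by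
  classical
  refine Finset.card_le_card_of_injOn (fun k => k + ({r} : Multiset ℕ)) ?_ ?_
  · intro k hk
    rw [Finset.mem_coe, mem_PT] at hk
    rw [Finset.mem_coe, mem_PT, Multiset.sum_add, Multiset.sum_singleton, hk.1]
    refine ⟨rfl, fun y hy => ?_⟩
    rw [Multiset.mem_add, Multiset.mem_singleton] at hy
    rcases hy with h | h
    · exact hk.2 y h
    · omega
  · intro k _ k' _ h
    exact add_right_cancel h

theorem step' (X S z : ℕ) (hS : 2 ≤ S) (h : X * (z + 3 * S) ≤ S ^ 2) :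
    X * (PT z).card ≤ (PT (z + 3 * S)).card := by
  have h1 := step S z hS
  set N := (z + 3 * S) / S with hN
  have hN0 : 0 < N := Nat.div_pos (by omega) (by omega)
  have h2 : X * N ≤ S := by
    have h3 : X * N * S ≤ S * S := by
      calc X * N * S = X * (N * S) := by ring
        _ ≤ X * (z + 3 * S) := Nat.mul_le_mul_left _ (Nat.div_mul_le_self _ _)
        _ ≤ S ^ 2 := h
        _ = S * S := by ring
    exact Nat.le_of_mul_le_mul_right h3 (by omega)
  have h4 : N * (X * (PT z).card) ≤ N * (PT (z + 3 * S)).card := by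
    calc N * (X * (PT z).card) = (X * N) * (PT z).card := by ring
      _ ≤ S * (PT z).card := Nat.mul_le_mul_right _ h2
      _ ≤ _ := h1
  exact Nat.le_of_mul_le_mul_left h4 hN0

/-- `X ^ K u(z) ≤ u(z + r)` as soon as `r ≥ 3 K S + 2` and `X (z + r) ≤ S ^ 2`. -/
theorem growth (X K S z r : ℕ) (hS : 2 ≤ S) (hr : 3 * K * S + 2 ≤ r)
    (h : X * (z + r) ≤ S ^ 2) : X ^ K * (PT z).card ≤ (PT (z + r)).card := by
  induction K generalizing z r with
  | zero =>
    rw [pow_zero, one_mul]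
    exact mono z r (by omega)
  | succ K ih =>
    have hr1 : 3 * K * S + 3 * S + 2 ≤ r := by
      calc 3 * K * S + 3 * S + 2 = 3 * (K + 1) * S + 2 := by ring
        _ ≤ r := hr
    obtain ⟨r', rfl⟩ : ∃ r', r = 3 * S + r' := ⟨r - 3 * S, by omega⟩
    have h1 : X * (z + 3 * S) ≤ S ^ 2 := by
      refine le_trans (Nat.mul_le_mul_left _ ?_) h
      omega
    have h2 := step' X S z hS h1
    have h3 := ih (z + 3 * S) r' (by omega) (by
      rw [add_assoc]
      exact h)
    calc X ^ (K + 1) * (PT z).card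
        = X ^ K * (X * (PT z).card) := by ring
      _ ≤ X ^ K * (PT (z + 3 * S)).card := Nat.mul_le_mul_left _ h2
      _ ≤ (PT (z + 3 * S + r')).card := h3
      _ = (PT (z + (3 * S + r'))).card := by rw [add_assoc]

/-- **(T7)** -/
theorem pureH : PureH := by
  intro w d X K Q s t hK hKX hX hd hQ hst htw
  have hX16 : 16 ≤ X := by nlinarith [hKX, hK]
  have hw : 1 ≤ w := by omega
  have hd1 : X ^ 2 ≤ d := by
    by_contra hcon
    push Not at hcon
    have h1 : d ^ 2 < (X ^ 2) ^ 2 := Nat.pow_lt_pow_left hcon (by norm_num)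
    have h2 : (X ^ 2) ^ 2 ≤ w * X ^ 4 := by
      calc (X ^ 2) ^ 2 = 1 * X ^ 4 := by ring
        _ ≤ w * X ^ 4 := Nat.mul_le_mul_right _ hw
    omega
  have h8 : 16 * X ≤ d := by
    calc 16 * X ≤ X * X := Nat.mul_le_mul_right _ hX16
      _ = X ^ 2 := by ring
      _ ≤ d := hd1
  have hK2 : K ≤ K ^ 2 := by nlinarith
  have hK8 : 16 * K ≤ X := by omega
  obtain ⟨S, hSdef⟩ : ∃ S, S = d / (4 * K) := ⟨_, rfl⟩
  have hS1 : 4 * K * S ≤ d := by
    rw [hSdef]
    exact Nat.mul_div_le _ _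
  have hS2 : d < 4 * K * (S + 1) := by
    rw [hSdef]
    exact Nat.lt_mul_div_succ d (by omega)
  have hS3 : 2 ≤ S := by
    rw [hSdef, Nat.le_div_iff_mul_le (by omega)]
    omega
  have hS4 : d ≤ 8 * K * S := by
    have : 4 * K * (S + 1) ≤ 8 * K * S := by
      calc 4 * K * (S + 1) ≤ 4 * K * (S + S) := Nat.mul_le_mul_left _ (by omega)
        _ = 8 * K * S := by ring
    omega
  have hS5 : X * t ≤ S ^ 2 := by
    have h1 : w * X ^ 4 ≤ (8 * K * S) ^ 2 := hX.trans (Nat.pow_le_pow_left hS4 2)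
    have h2 : (8 * K * S) ^ 2 ≤ 4 * X * S ^ 2 := by
      calc (8 * K * S) ^ 2 = 4 * (16 * K ^ 2) * S ^ 2 := by ring
        _ ≤ 4 * X * S ^ 2 := Nat.mul_le_mul_right _ (Nat.mul_le_mul_left _ hKX)
    have h3 : X * (w * X ^ 3) ≤ X * (4 * S ^ 2) := by
      calc X * (w * X ^ 3) = w * X ^ 4 := by ring
        _ ≤ 4 * X * S ^ 2 := h1.trans h2
        _ = X * (4 * S ^ 2) := by ring
    have h4 : w * X ^ 3 ≤ 4 * S ^ 2 := Nat.le_of_mul_le_mul_left h3 (by omega)
    have h5 : 4 * (X * w) ≤ w * X ^ 3 := by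
      calc 4 * (X * w) ≤ X ^ 2 * (X * w) := by
            refine Nat.mul_le_mul_right _ ?_
            calc 4 ≤ X := by omega
              _ = X ^ 1 := (pow_one X).symm
              _ ≤ X ^ 2 := Nat.pow_le_pow_right (by omega) (by norm_num)
        _ = w * X ^ 3 := by ring
    have h6 : X * t ≤ X * w := Nat.mul_le_mul_left _ htw
    omega
  have hS6 : 3 * K * S + 2 ≤ t - s := by
    have h1 : 4 * K * S = 3 * K * S + K * S := by ring
    have h2 : 1 * 2 ≤ K * S := Nat.mul_le_mul hK hS3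
    omega
  have hg := growth X K S s (t - s) hS3 hS6 (by
    rw [Nat.add_sub_cancel' (by omega : s ≤ t)]
    exact hS5)
  rw [Nat.add_sub_cancel' (by omega : s ≤ t)] at hg
  refine le_trans (Nat.mul_le_mul_right _ ?_) hg
  calc Q = Q * 1 := (mul_one Q).symm
    _ ≤ Q * (4 * w + 4) := Nat.mul_le_mul_left _ (by omega)
    _ ≤ X ^ K := hQ

end Vale.Agent.P181.ST.H342
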